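import Vale.Agent.Lib.P160.RV.Defs

/-!
# P160: the lazy chain on subsets of `Fin n` used for the subset sum bound

Moves of the chain: a hop `k -> k + 1` (allowed when `k` is in the set and `k + 1` is not),
with weight `1 - (k + 1) / n`, and an entry at the index `0` (allowed when `0` is not in the
set), with weight `1 / 2`.
-/

namespace Vale.Agent.Lib.P160.H4

open Finset

/-- Weight of the move from `S` to `S'`. -/
noncomputable def qq (n : ℕ) (S S' : Finset (Fin n)) : ℝ :=
  (∑ k : Fin n, ∑ j : Fin n,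
      if j.val = k.val + 1 ∧ k ∈ S ∧ j ∉ S ∧ S' = insert j (S.erase k)
        then 1 - (j.val : ℝ) / n else 0) +
  ∑ j : Fin n, if j.val = 0 ∧ j ∉ S ∧ S' = insert j S then (1 / 2 : ℝ) else 0

/-- Total weight of the moves out of `S`, as an explicit sum. -/
noncomputable def outF (n : ℕ) (S : Finset (Fin n)) : ℝ :=
  (∑ k : Fin n, ∑ j : Fin n,
      if j.val = k.val + 1 ∧ k ∈ S ∧ j ∉ S then 1 - (j.val : ℝ) / n else 0) +
  ∑ j : Fin n, if j.val = 0 ∧ j ∉ S then (1 / 2 : ℝ) else 0

/-- Total weight of the moves into `S`, as an explicit sum. -/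
noncomputable def inF (n : ℕ) (S : Finset (Fin n)) : ℝ :=
  (∑ k : Fin n, ∑ j : Fin n,
      if j.val = k.val + 1 ∧ k ∉ S ∧ j ∈ S then 1 - (j.val : ℝ) / n else 0) +
  ∑ j : Fin n, if j.val = 0 ∧ j ∈ S then (1 / 2 : ℝ) else 0

/-- Number of indices `k` in the lower half with `k` in `S` and `k + 1` not in `S`. -/
def desc (n : ℕ) (S : Finset (Fin n)) : ℕ :=
  (univ.filter fun k : Fin n =>
    2 * (k.val + 1) ≤ n ∧ k ∈ S ∧ ∀ j : Fin n, j.val = k.val + 1 → j ∉ S).card

end Vale.Agent.Lib.P160.H4
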