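import Vale.Agent.Lib.P160.helper4.SSSub
import Vale.Agent.Lib.P160.helper44.ChainLevel
import Vale.Agent.Lib.P160.helper45.ChainWeights
import Vale.Agent.Lib.P160.helper16.BadCount
import Vale.Agent.Lib.P160.helper67.SignsFromSubsets
import Vale.Agent.Lib.P160.helper94.OutIn

/-!
# P160: the row bound for vectors with many distinct absolute values, assembled

For a real vector `w` with at least `D` distinct absolute values among its nonzero coordinates,
the number of sign vectors `x` with `sdot x w = c` is at most `C * 2 ^ N / D ^ (3 / 2)`.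
This file assembles the chain estimate (helper44), the structure of the chain weights
(helper45), the explicit sums `inF`, `outF` (helper94), the count of sets with few descents
(helper16) and the passage from subsets to signs (helper67).
-/

namespace Vale.Agent.Lib.P160.H4

open Finset

/-- The chain estimate for the concrete chain `qq`, given the facts on the explicit sums. -/
theorem chain_qq
    (h1 : ∀ (n : ℕ), 1 ≤ n → ∀ S : Finset (Fin n),
      inF n S - outF n S = ((S.card : ℝ) - n / 2) / n)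
    (h2 : ∀ (n : ℕ) (S : Finset (Fin n)), outF n S ≤ n)
    (n : ℕ) (hn : 16 ≤ n) (a : Fin n → ℝ) (ha : ∀ i, 0 < a i) (hm : StrictMono a)
    (x : ℝ) :
    Real.sqrt n * ∑ S ∈ (univ : Finset (Finset (Fin n))).filter
        (fun S => ∑ i ∈ S, a i = x ∧ (n : ℝ) / 2 - Real.sqrt n ≤ (S.card : ℝ)),
      ∑ S', qq n S S' ≤ 10 * 2 ^ n := by
  have hbal : ∀ S : Finset (Fin n),
      ∑ S', qq n S' S - ∑ S', qq n S S' = ((S.card : ℝ) - n / 2) / n := by
    intro S
    rw [H45.qq_in_eq, H45.qq_out_eq]
    exact h1 n (by omega) S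
  have hout : ∀ S : Finset (Fin n), ∑ S', qq n S S' ≤ n := by
    intro S
    rw [H45.qq_out_eq]
    exact h2 n S
  have hszn : ∀ S : Finset (Fin n), S.card ≤ n := by
    intro S
    have h3 := Finset.card_le_univ S
    rwa [Fintype.card_fin] at h3
  have h := H44.chain_level (Ω := Finset (Fin n)) (qq n) (fun S => ∑ i ∈ S, a i)
    (fun S => S.card) n hn (H45.qq_nonneg n) (fun S S' h => H45.qq_lt n a ha hm S S' h)
    (fun S' S h => H45.qq_card n S' S h) (H45.qq_entry n) hbal hout hszn x
  have hc : ((Fintype.card (Finset (Fin n)) : ℕ) : ℝ) = 2 ^ n := by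
    rw [Fintype.card_finset, Fintype.card_fin]
    push_cast
    rfl
  rw [hc] at h
  exact h

/-- The row bound, given the three facts on the explicit sums `inF`, `outF`. -/
theorem ss_row_of_sums
    (h1 : ∀ (n : ℕ), 1 ≤ n → ∀ S : Finset (Fin n),
      inF n S - outF n S = ((S.card : ℝ) - n / 2) / n)
    (h2 : ∀ (n : ℕ) (S : Finset (Fin n)), outF n S ≤ n)
    (h3 : ∀ (n : ℕ) (S : Finset (Fin n)), (desc n S : ℝ) / 2 ≤ outF n S) :
    ∃ C : ℝ, 0 < C ∧ ∀ (κ : Type) [Fintype κ] [DecidableEq κ] (w : κ → ℝ) (c : ℝ)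
      (D : ℕ), D ≤ dabs w →
      ((univ.filter fun x : κ → ℤˣ => sdot x w = c).card : ℝ) * ((D : ℝ) * Real.sqrt (D : ℝ)) ≤
        C * 2 ^ Fintype.card κ := by
  obtain ⟨C, _, hC⟩ := subset_sum_of (chain_qq h1 h2)
    (fun n S => by rw [H45.qq_out_eq]; exact h3 n S) H16.bad_count
  exact H67.ss_row_of_exists ⟨C, hC⟩

/-- The row bound: a real vector with at least `D` distinct absolute values among its nonzero
coordinates has at most `C * 2 ^ N / D ^ (3 / 2)` sign vectors `x` with `sdot x w = c`. -/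
theorem ss_row : ∃ C : ℝ, 0 < C ∧ ∀ (κ : Type) [Fintype κ] [DecidableEq κ] (w : κ → ℝ) (c : ℝ)
    (D : ℕ), D ≤ dabs w →
    ((univ.filter fun x : κ → ℤˣ => sdot x w = c).card : ℝ) * ((D : ℝ) * Real.sqrt (D : ℝ)) ≤
      C * 2 ^ Fintype.card κ :=
  ss_row_of_sums H94.inF_sub_outF H94.outF_le H94.outF_ge

end Vale.Agent.Lib.P160.H4
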