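import Vale.Agent.Lib.P160.helper4.SSDefs

/-!
# P160: the subset sum bound from the chain estimate, the descent bound and the count of bad sets
-/

namespace Vale.Agent.Lib.P160.H4

open Finset

/-- Assembly: if the chain estimate `H1`, the lower bound `H2` for the total weight out of a set
and the count `H3` of sets with few descents hold, then a level set of the subset sums of an
increasing positive sequence of length `n` has at most `C * 2 ^ n / n ^ (3 / 2)` elements. -/
theorem subset_sum_of
    (H1 : ∀ (n : ℕ), 16 ≤ n → ∀ (a : Fin n → ℝ), (∀ i, 0 < a i) → StrictMono a → ∀ x : ℝ,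
      Real.sqrt n * ∑ S ∈ (univ : Finset (Finset (Fin n))).filter
          (fun S => ∑ i ∈ S, a i = x ∧ (n : ℝ) / 2 - Real.sqrt n ≤ (S.card : ℝ)),
        ∑ S', qq n S S' ≤ 10 * 2 ^ n)
    (H2 : ∀ (n : ℕ) (S : Finset (Fin n)), (desc n S : ℝ) / 2 ≤ ∑ S', qq n S S')
    (H3 : ∃ C : ℝ, 0 < C ∧ ∀ n : ℕ,
      (((univ : Finset (Finset (Fin n))).filter fun S => 128 * desc n S < n).card : ℝ) *
        ((n : ℝ) * Real.sqrt n) ≤ C * 2 ^ n) :
    ∃ C : ℝ, 0 < C ∧ ∀ (n : ℕ) (a : Fin n → ℝ), (∀ i, 0 < a i) → StrictMono a → ∀ x : ℝ,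
      (((univ : Finset (Finset (Fin n))).filter fun S => ∑ i ∈ S, a i = x).card : ℝ) *
        ((n : ℝ) * Real.sqrt n) ≤ C * 2 ^ n := by
  obtain ⟨C3, hC3, hbad⟩ := H3
  refine ⟨2 * (2560 + C3) + 64, by positivity, ?_⟩
  intro n a ha hm x
  have h2n : (0 : ℝ) < 2 ^ n := by positivity
  have hsq : 0 ≤ Real.sqrt (n : ℝ) := Real.sqrt_nonneg _
  have hnn : (0 : ℝ) ≤ n := Nat.cast_nonneg n
  have hCp : 0 < C3 * 2 ^ n := mul_pos hC3 h2n
  by_cases hn : n < 16
  · have hcard : (((univ : Finset (Finset (Fin n))).filter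
        fun S => ∑ i ∈ S, a i = x).card : ℝ) ≤ 2 ^ n := by
      have h1 := Finset.card_filter_le (univ : Finset (Finset (Fin n)))
        (fun S => ∑ i ∈ S, a i = x)
      have h2 : (univ : Finset (Finset (Fin n))).card = 2 ^ n := by
        rw [Finset.card_univ, Fintype.card_finset, Fintype.card_fin]
      have h3 : ((univ : Finset (Finset (Fin n))).filter
          fun S => ∑ i ∈ S, a i = x).card ≤ 2 ^ n := by
        rw [← h2]; exact h1
      exact_mod_cast h3
    have hn16 : (n : ℝ) ≤ 16 := by exact_mod_cast hn.le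
    have hs4 : Real.sqrt (n : ℝ) ≤ 4 := by
      have h1 : Real.sqrt (n : ℝ) ≤ Real.sqrt 16 := Real.sqrt_le_sqrt hn16
      have h16 : Real.sqrt (16 : ℝ) = 4 := by
        rw [show (16 : ℝ) = 4 ^ 2 by norm_num]; exact Real.sqrt_sq (by norm_num)
      linarith
    have hprod : (n : ℝ) * Real.sqrt n ≤ 64 := by nlinarith
    have hstep : (((univ : Finset (Finset (Fin n))).filter
        fun S => ∑ i ∈ S, a i = x).card : ℝ) * ((n : ℝ) * Real.sqrt n) ≤ 2 ^ n * 64 :=
      mul_le_mul hcard hprod (by positivity) (by positivity)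
    nlinarith
  · have hn := not_lt.1 hn
    have key : ∀ y : ℝ, (((univ : Finset (Finset (Fin n))).filter
        (fun S => ∑ i ∈ S, a i = y ∧ (n : ℝ) / 2 - Real.sqrt n ≤ (S.card : ℝ))).card : ℝ) *
          ((n : ℝ) * Real.sqrt n) ≤ (2560 + C3) * 2 ^ n := by
      intro y
      have hout := H1 n hn a ha hm y
      have hb := hbad n
      generalize hAp : (univ : Finset (Finset (Fin n))).filter
        (fun S => ∑ i ∈ S, a i = y ∧ (n : ℝ) / 2 - Real.sqrt n ≤ (S.card : ℝ)) = Ap at hout ⊢
      generalize hBad : (univ : Finset (Finset (Fin n))).filter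
        (fun S => 128 * desc n S < n) = Bad at hb
      have hsub : Ap ⊆ Ap.filter (fun S => ¬ 128 * desc n S < n) ∪ Bad := by
        intro S hS
        by_cases hd : 128 * desc n S < n
        · exact mem_union_right _ (by rw [← hBad]; exact mem_filter.2 ⟨mem_univ _, hd⟩)
        · exact mem_union_left _ (mem_filter.2 ⟨hS, hd⟩)
      generalize hG : Ap.filter (fun S => ¬ 128 * desc n S < n) = G at hsub
      have hcard : (Ap.card : ℝ) ≤ G.card + Bad.card := by
        have h1 := (Finset.card_le_card hsub).trans (Finset.card_union_le G Bad)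
        exact_mod_cast h1
      have hGsum : (G.card : ℝ) * ((n : ℝ) / 256) ≤ ∑ S ∈ Ap, ∑ S', qq n S S' := by
        have h1 : (G.card : ℝ) * ((n : ℝ) / 256) = ∑ _S ∈ G, ((n : ℝ) / 256) := by
          rw [Finset.sum_const, nsmul_eq_mul]
        rw [h1]
        have h2 : ∑ _S ∈ G, ((n : ℝ) / 256) ≤ ∑ S ∈ G, ∑ S', qq n S S' := by
          apply Finset.sum_le_sum
          intro S hS
          rw [← hG] at hS
          have hd := not_lt.1 (mem_filter.1 hS).2
          have hd' : (n : ℝ) ≤ 128 * (desc n S : ℝ) := by exact_mod_cast hd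
          have h3 := H2 n S
          linarith
        have h3 : ∑ S ∈ G, ∑ S', qq n S S' ≤ ∑ S ∈ Ap, ∑ S', qq n S S' := by
          apply Finset.sum_le_sum_of_subset_of_nonneg
          · rw [← hG]; exact Finset.filter_subset _ _
          · intro S _ _
            have h4 := H2 n S
            have hd0 : (0 : ℝ) ≤ (desc n S : ℝ) := Nat.cast_nonneg _
            linarith
        linarith
      have hG2 : (G.card : ℝ) * ((n : ℝ) * Real.sqrt n) ≤ 2560 * 2 ^ n := by
        have h5 : Real.sqrt n * ((G.card : ℝ) * ((n : ℝ) / 256)) ≤ 10 * 2 ^ n :=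
          le_trans (mul_le_mul_of_nonneg_left hGsum hsq) hout
        nlinarith
      calc (Ap.card : ℝ) * ((n : ℝ) * Real.sqrt n)
          ≤ ((G.card : ℝ) + Bad.card) * ((n : ℝ) * Real.sqrt n) :=
            mul_le_mul_of_nonneg_right hcard (by positivity)
        _ = (G.card : ℝ) * ((n : ℝ) * Real.sqrt n)
            + (Bad.card : ℝ) * ((n : ℝ) * Real.sqrt n) := by ring
        _ ≤ 2560 * 2 ^ n + C3 * 2 ^ n := add_le_add hG2 hb
        _ = (2560 + C3) * 2 ^ n := by ring
    have k1 := key x
    have k2 := key ((∑ i, a i) - x)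
    generalize hAp : (univ : Finset (Finset (Fin n))).filter
        (fun S => ∑ i ∈ S, a i = x ∧ (n : ℝ) / 2 - Real.sqrt n ≤ (S.card : ℝ)) = Ap at k1
    generalize hAq : (univ : Finset (Finset (Fin n))).filter
        (fun S => ∑ i ∈ S, a i = (∑ i, a i) - x ∧ (n : ℝ) / 2 - Real.sqrt n ≤ (S.card : ℝ))
        = Aq at k2
    generalize hA : (univ : Finset (Finset (Fin n))).filter (fun S => ∑ i ∈ S, a i = x) = A
    have hsplit : A ⊆ Ap ∪ A.filter (fun S => ¬ ((n : ℝ) / 2 - Real.sqrt n ≤ (S.card : ℝ))) := by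
      intro S hS
      have hSx : ∑ i ∈ S, a i = x := by rw [← hA] at hS; exact (mem_filter.1 hS).2
      by_cases hc : (n : ℝ) / 2 - Real.sqrt n ≤ (S.card : ℝ)
      · exact mem_union_left _ (by rw [← hAp]; exact mem_filter.2 ⟨mem_univ _, hSx, hc⟩)
      · exact mem_union_right _ (mem_filter.2 ⟨hS, hc⟩)
    have hLo_le : (A.filter (fun S => ¬ ((n : ℝ) / 2 - Real.sqrt n ≤ (S.card : ℝ)))).card
        ≤ Aq.card := by
      apply Finset.card_le_card_of_injOn (fun S => Sᶜ)
      · intro S hS
        have hS' := mem_filter.1 hS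
        have hSx : ∑ i ∈ S, a i = x := by
          have h1 := hS'.1; rw [← hA] at h1; exact (mem_filter.1 h1).2
        have hc := not_le.1 hS'.2
        rw [← hAq]
        refine mem_filter.2 ⟨mem_univ _, ?_, ?_⟩
        · have h1 := Finset.sum_add_sum_compl S a
          linarith
        · have hcc : ((Sᶜ).card : ℝ) = (n : ℝ) - S.card := by
            rw [Finset.card_compl, Fintype.card_fin, Nat.cast_sub]
            have h1 := Finset.card_le_univ S
            rwa [Fintype.card_fin] at h1
          rw [hcc]; linarith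
      · intro S _ T _ h
        exact compl_injective h
    have hcardA : (A.card : ℝ) ≤ Ap.card + Aq.card := by
      have h1 := (Finset.card_le_card hsplit).trans (Finset.card_union_le _ _)
      have h2 : A.card ≤ Ap.card + Aq.card := by omega
      exact_mod_cast h2
    have hfin : (A.card : ℝ) * ((n : ℝ) * Real.sqrt n)
        ≤ ((Ap.card : ℝ) + Aq.card) * ((n : ℝ) * Real.sqrt n) :=
      mul_le_mul_of_nonneg_right hcardA (by positivity)
    nlinarith

end Vale.Agent.Lib.P160.H4
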